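import Vale.Agent.P057RC.Shear
import Vale.Agent.P057RG.Up

/-!
The root block from the smoothness margin.
-/

set_option linter.all false

open Matrix Finset Real
open Vale.Agent.P267.H775 Vale.Agent.P057G Vale.Agent.P057PC Vale.Agent.P057TP Vale.Agent.P057SG
open Vale.Agent.P057GH Vale.Agent.P057DP Vale.Agent.P057RH Vale.Agent.P057EN Vale.Agent.P057MA
open Vale.Agent.P057IV (Mg den)
open Vale.Agent.P057T1 (ind_pos ind_neg ind_nonneg ind_le abs_ind)

namespace Vale.Agent.P057RC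

noncomputable section

variable {T : Tow} {n p s c : ℕ} {R : Type} {N : ℝ} [Fintype R] [DecidableEq R]
  {Z : Sys T (Uv n p R) Unit} {P : ℕ → ℝ} {f : ℤ → ℝ} {θ A : ℝ}

theorem ctx_mono (h : Ctx s N c P T n p R Z f θ A) {c' : ℕ} (h1 : 1 ≤ c) (hc : c' ≤ c) :
    Ctx s N c' P T n p R Z f θ A := by
  have a1 : (1 : ℝ) ≤ A := (Nat.one_le_cast.2 h1).trans ((h.lad.big _).trans h.PA)
  exact { h with
    lad := { h.lad with big := fun e => (Nat.cast_le.2 hc).trans (h.lad.big e) }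
    lf := P057RG.lfd_mono h.ok h.lf le_rfl (pow_le_pow_right₀ a1 hc) (pow_le_pow_right₀ a1 hc) }

theorem card_vt (h : Ctx s N c P T n p R Z f θ A) (hc : s + 3 ≤ c) :
    (Fintype.card (Vt n p R) : ℝ) ≤ P (n + 2) ^ 3 := by
  have x1 : (s : ℝ) + 3 ≤ P (n + 2) := le_trans (by exact_mod_cast hc) (h.lad.big _)
  have x2 : (n : ℝ) + 1 ≤ s := by exact_mod_cast h.ns
  have x3 : (n : ℝ) * p ≤ P (n + 2) * P (n + 2) :=
    mul_le_mul (by linarith) h.pP (Nat.cast_nonneg _) (by linarith [Nat.cast_nonneg (α := ℝ) s])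
  have x4 := h.rP
  have x5 : (3 : ℝ) ≤ P (n + 2) := by linarith [Nat.cast_nonneg (α := ℝ) s]
  simp only [Fintype.card_option, Fintype.card_sum, Fintype.card_prod, Fintype.card_fin]
  push_cast
  nlinarith [mul_le_mul_of_nonneg_right x5 (mul_self_nonneg (P (n + 2)))]

theorem card_lr (h : Ctx s N c P T n p R Z f θ A) (hc : s + 3 ≤ c) :
    (Fintype.card (Lr T n p R) : ℝ) ≤ exp (P (n + 2) ^ 4) := by
  have x1 : (s : ℝ) + 3 ≤ P (n + 2) := le_trans (by exact_mod_cast hc) (h.lad.big _)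
  have x5 : (3 : ℝ) ≤ P (n + 2) := by linarith [Nat.cast_nonneg (α := ℝ) s]
  have an := antitone_nat_of_succ_le h.lad.anti
  have h0 : P 0 ≤ exp (P (n + 2)) :=
    (Real.le_exp_log _).trans (exp_le_exp.2 (h.lad.lg.trans (an (by have := h.ns; omega))))
  have h1 := Fintype.card_le_of_injective (fun l : Lr T n p R => (l.cd, l.fc)) fun l l' e =>
    lb_ext (congrArg Prod.fst e :) (congrArg Prod.snd e :) ((bs_none l).trans (bs_none l').symm)
  have h2 : (Fintype.card T.ι : ℝ) ≤ (s + 1) * exp (P (n + 2)) := by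
    rw [← card_univ, card_eq_sum_card_fiberwise (f := T.lv) (t := range (s + 1))
      fun a _ => mem_coe.2 (mem_range.2 (Nat.lt_succ_of_le (h.ok.le a))), Nat.cast_sum]
    exact (sum_le_card_nsmul _ _ (exp (P (n + 2))) fun e _ =>
      (h.cx e).1.trans ((an (Nat.zero_le e)).trans h0)).trans_eq (by simp)
  have h3 : (2 : ℝ) ^ Fintype.card (Vt n p R) ≤ exp (P (n + 2) ^ 3) :=
    (pow_le_pow_left₀ zero_le_two (by linarith [add_one_le_exp (1 : ℝ)]) _ :
      _ ≤ exp 1 ^ _).trans (by rw [← exp_nat_mul, mul_one]; exact exp_le_exp.2 (card_vt h hc))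
  have h4 : (s : ℝ) + 1 ≤ exp (P (n + 2)) := by linarith [add_one_le_exp (P (n + 2))]
  rw [Fintype.card_prod, Fintype.card_finset] at h1
  refine (Nat.cast_le.2 h1).trans ?_
  push_cast
  refine (mul_le_mul (h2.trans (mul_le_mul_of_nonneg_right h4 (exp_pos _).le)) h3 (by positivity)
    (by positivity)).trans ?_
  rw [← exp_add, ← exp_add]
  refine exp_le_exp.2 ?_
  have : 9 ≤ P (n + 2) ^ 2 := by nlinarith
  nlinarith [mul_le_mul_of_nonneg_right x5 (by positivity : 0 ≤ P (n + 2) ^ 3),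
    mul_le_mul_of_nonneg_right this (by positivity : 0 ≤ P (n + 2))]

theorem tsum_wD (hT : T.Ok s N) (hZ : Z.Ok) {k : ℕ} {Λ η : ℝ} (hL : T.tw.LF (n + 1) k Λ η)
    (hn : Fintype.card (Vt n p R) ≤ k) (hΛ : 2 ≤ Λ) : |∑' D, wD Z D - 1| ≤ η := by
  have h1 := Ev_qF (Z := Z) 1 1 fun _ => 1
  simp only [Ev_one, mul_one, ← Complex.ofReal_tsum, Complex.ofReal_inj, mass_ms] at h1
  rw [← h1]
  refine fine_pz hT (ok_pbo hZ jk Empty) cq_qF le_rfl hL (by simpa using hn) (by linarith) _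
    (fun i => (0 : Lr T n p R → ℝ) i) (posDef_blk (pd_sG hT.pd (sc_pos one_pos one_pos)) _)
    fun v => ?_
  rw [qq_smul_mat, ← qq_blk_const]
  refine qq_blk_mono hT.pd v fun l _ => ?_
  rw [sc_frz 1 1 (mem_qF.1 l.2)]
  simp only [Fintype.card_empty, Nat.cast_zero, mul_zero, zero_add]
  linarith

/-- bad frozen labels are cheap because every root system has mass at least one -/
theorem bad {Δ : Type} {w q m b₁ b₂ g : Δ → ℝ} {B : ℝ} (hw : Summable w) (h0 : ∀ D, 0 ≤ w D)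
    (hq : ∀ D, |q D| ≤ B) (hm : ∀ D, |m D| ≤ B) (h1 : ∀ D, |b₁ D| ≤ 1) (h2 : ∀ D, |b₂ D| ≤ 1)
    (hg : ∀ D, |g D| ≤ B) (h : ∀ D, q D - b₁ D - b₂ D - m D + 1 ≤ g D) :
    ∑' D, w D * q D - ∑' D, w D * b₁ D - ∑' D, w D * b₂ D - ∑' D, w D * m D + ∑' D, w D ≤
      ∑' D, w D * g D :=
  hasSum_le (fun D => by nlinarith [mul_le_mul_of_nonneg_left (h D) (h0 D)])
    (((((summable_mul_real hw h0 hq).hasSum.sub (summable_mul_real hw h0 h1).hasSum).sub
      (summable_mul_real hw h0 h2).hasSum).sub (summable_mul_real hw h0 hm).hasSum).add hw.hasSum)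
    (summable_mul_real hw h0 hg).hasSum

theorem root_of (hA : ROOTA) (hM : MGM s) : ROOT s := by
  obtain ⟨c₀, -, hM⟩ := hM
  refine ⟨c₀ + s + 100, by omega, fun N P T n p R _ _ Z f θ A γ lam Y h hY hYA g1 g2 l1 l2 => ?_⟩
  have x0 : (s : ℝ) + 100 ≤ P (n + 2) :=
    le_trans (by push_cast; linarith [Nat.cast_nonneg (α := ℝ) c₀]) (h.lad.big _)
  have s0 := Nat.cast_nonneg (α := ℝ) s
  have y1 : (100 : ℝ) ≤ Y := by linarith
  have pw : ∀ {x : ℝ} {i j : ℕ}, 100 ≤ x → i < j → 100 * x ^ i ≤ x ^ j := fun {x i j} a b =>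
    (mul_le_mul_of_nonneg_right a (by positivity)).trans (by
      rw [← pow_succ']; exact pow_le_pow_right₀ (by linarith) b)
  have a1 : (100 : ℝ) ≤ A := y1.trans hYA
  have cv : (Fintype.card (Vt n p R) : ℝ) ≤ Y ^ 3 :=
    (card_vt h (by omega)).trans (pow_le_pow_left₀ (by linarith) hY 3)
  have cl := card_lr h (by omega)
  have cy : (Fintype.card (Lr T n p R) : ℝ) ≤ exp (Y ^ 4) :=
    cl.trans (exp_le_exp.2 (pow_le_pow_left₀ (by linarith) hY 4))
  have l0 : 1 ≤ lam := (one_le_exp (by positivity)).trans l1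
  have hn : 2 * Fintype.card (Vt n p R) ≤ ⌊A ^ (c₀ + s + 100)⌋₊ := Nat.le_floor (by
    have := pw (i := 3) (j := c₀ + s + 100) a1 (by omega)
    have := pow_le_pow_left₀ (by linarith) hYA 3
    push_cast
    linarith [pow_nonneg (by linarith : 0 ≤ A) 3])
  have u1 : exp (-Y) ≤ 1 / 100 := by
    rw [exp_neg, one_div]
    exact inv_anti₀ (by norm_num) (by linarith [add_one_le_exp Y])
  have u0 := exp_pos (-Y)
  have u2 : exp (-(2 * Y)) = exp (-Y) * exp (-Y) := by rw [← exp_add]; congr 1; ring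
  have η1 : exp (-A ^ (c₀ + s + 100)) ≤ exp (-(2 * Y)) ^ 2 := by
    rw [← exp_nat_mul]
    refine exp_le_exp.2 ?_
    have := pw (i := 1) (j := c₀ + s + 100) a1 (by omega)
    push_cast
    linarith [pow_one A]
  have η2 : √(exp (-A ^ (c₀ + s + 100))) ≤ exp (-(2 * Y)) := sqrt_le_iff.2 ⟨(exp_pos _).le, η1⟩
  have η3 : exp (-A ^ (c₀ + s + 100)) ≤ exp (-(2 * Y)) := η1.trans (by
    have : exp (-(2 * Y)) ≤ 1 := exp_le_one_iff.2 (by linarith)
    nlinarith [exp_pos (-(2 * Y))])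
  have η4 : exp (-A ^ (c₀ + s + 100)) ≤ 1 := exp_le_one_iff.2 (by
    linarith [pow_nonneg (by linarith : 0 ≤ A) (c₀ + s + 100)])
  have y4 := pw (i := 4) (j := 5) y1 (by omega)
  have y3 := pw (i := 1) (j := 4) y1 (by omega)
  rw [pow_one] at y3
  have e1 : exp (-Y ^ 5) * Fintype.card (Lr T n p R) ≤ exp (-(2 * Y)) :=
    (mul_le_mul_of_nonneg_left cy (exp_pos _).le).trans (by
      rw [← exp_add]; exact exp_le_exp.2 (by linarith))
  have sh := shear h.ok h.zok l0 (by linarith : 0 < γ) h.lf η4 hn (exp_pos (-Y ^ 5)).le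
    ((exp_le_exp.2 (by linarith)).trans (u1.trans (by norm_num)))
    (((pow_le_pow_left₀ (by norm_num) (by nlinarith [add_one_le_exp (1 : ℝ), exp_add 1 1]) _ :
      _ ≤ exp (1 + 1) ^ _).trans (by
        rw [← exp_nat_mul, ← exp_nat_mul, ← exp_add]
        have := pw (i := 5) (j := c₀ + s + 100) y1 (by omega)
        have := pw (i := 3) (j := 5) y1 (by omega)
        refine exp_le_exp.2 ?_
        push_cast
        linarith [pow_nonneg (by linarith : 0 ≤ Y) 3])).trans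
      (mul_le_mul_of_nonneg_left l1 (sq_nonneg _)))
    ((mul_le_mul (by linarith [add_one_le_exp A] : 4 ≤ exp A)
      (pow_le_pow_left₀ (by linarith) l2 s) (by positivity) (exp_pos _).le).trans (by
        rw [← exp_nat_mul, ← exp_add]
        have := pw (i := 2) (j := c₀ + s + 100) a1 (by omega)
        exact exp_le_exp.2 (by nlinarith)))
  have sw := summable_wD h.ok h.zok
  refine ⟨wD_nonneg Z, sw, ?_, ?_, fun Q Gd hG => ?_⟩
  · have : 1 ≤ A ^ (c₀ + s + 100) := one_le_pow₀ (by linarith)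
    linarith [(abs_le.1 (tsum_wD h.ok h.zok h.lf (by omega)
      (by linarith [add_one_le_exp (A ^ (c₀ + s + 100))]))).2]
  · exact (Nat.cast_le.2 (Fintype.card_subtype_le _)).trans (cl.trans
      (exp_le_exp.2 (pow_le_pow_right₀ (by linarith) (by omega))))
  have hm := hM N P T n p R Z f θ A γ lam Y (ctx_mono h (by omega) (by omega)) hY hYA g1 g2
    ((exp_le_exp.2 (pow_le_pow_right₀ (by linarith) (by omega))).trans l1) l2
  have s1 := (abs_le.1 (sh (fun w => P057T1.ind (Q w)) fun w => abs_ind _)).1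
  have s2 := (abs_le.1 (sh (fun _ => 1) fun _ => by simp)).2
  have s3 : ∑' w : Pg T n p R → ℤ, wP Z w = ∑' D, wD Z D := by
    have := tsum_wP (Z := Z) fun _ => 1
    simp only [mul_one, ← Complex.ofReal_tsum, Complex.ofReal_inj] at this
    exact this
  simp only [mul_one, tsum_nw] at s2
  obtain ⟨B, hB⟩ := mass_bdd h.ok h.zok (by linarith : 0 < lam) (by linarith : 0 < γ) (rB T n p R)
  have ok := fun D => hA s N T n p R Z lam γ D h.ok h.zok (by linarith) (by linarith)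
  have m1 : ∀ D, 1 ≤ (root Z lam γ D).mass (rB T n p R) := fun D =>
    (ok D).1.one_le_mass (ok D).2.1 ((ok D).1.sat fun i j e _ hi => mem_rB.2 (by
      have := mem_rB.1 hi
      change lf i.1 = lf j.1 at e
      rwa [← e]))
  have dn : ∀ D (E : (Lv T n p R → ℝ) → Prop), den (root Z lam γ D) (BB n) E =
      ∑' x, nw (root Z lam γ D) (rB T n p R) x * P057T1.ind (E (toR x)) := fun D E => by
    rw [den, fce_root, ← tsum_div_const]
    simp only [nw, div_mul_eq_mul_div]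
  have d0 : ∀ D (E : (Lv T n p R → ℝ) → Prop), 0 ≤ den (root Z lam γ D) (BB n) E := fun D E => by
    rw [dn]; exact tsum_nonneg fun x => mul_nonneg (nw_nonneg _ _ _) (ind_nonneg _)
  have d1 : ∀ D (E : (Lv T n p R → ℝ) → Prop),
      den (root Z lam γ D) (BB n) E ≤ (root Z lam γ D).mass (rB T n p R) := fun D E => by
    have := ((ok D).1.summable (rB T n p R)).div_const (vl (root Z lam γ D).G (rB T n p R))
    rw [dn, ← tsum_nw]
    exact (summable_mul_real this (nw_nonneg _ _) fun _ => abs_ind _).tsum_le_tsum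
      (fun x => mul_le_of_le_one_right (nw_nonneg _ _ _) (ind_le _)) this
  have d2 := fun D E => abs_le.2 ⟨by linarith [d0 D E, hB D, m1 D], (d1 D E).trans (hB D)⟩
  have key := bad sw (wD_nonneg Z) (fun D => d2 D fun x => Q (rp (rmap D x)))
    (fun D => abs_le.2 ⟨by linarith [hB D, m1 D], hB D⟩)
    (fun D => abs_ind (¬ Mg (root Z lam γ D) A)) (fun D => abs_ind (¬ Gd D))
    (fun D => d2 D fun x => (Mg (root Z lam γ D) A ∧ Gd D) ∧ Q (rp (rmap D x))) fun D => by
      have i1 := ind_nonneg (¬ Mg (root Z lam γ D) A)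
      have i2 := ind_nonneg (¬ Gd D)
      by_cases k : Mg (root Z lam γ D) A ∧ Gd D
      · simp only [k.1, k.2, true_and, and_self] at i1 i2 ⊢
        linarith [m1 D]
      · have i3 : 1 ≤ P057T1.ind (¬ Mg (root Z lam γ D) A) + P057T1.ind (¬ Gd D) := by
          rcases not_and_or.1 k with k | k <;> linarith [ind_pos k]
        linarith [d1 D fun x => Q (rp (rmap D x)),
          d0 D fun x => (Mg (root Z lam γ D) A ∧ Gd D) ∧ Q (rp (rmap D x))]
  have w0 : 0 ≤ ∑' w, wP Z w * P057T1.ind (Q w) :=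
    tsum_nonneg fun w => mul_nonneg (ng_nonneg _ _) (ind_nonneg _)
  rw [← tsum_congr fun D => congrArg (wD Z D * ·) (dn D fun x => Q (rp (rmap D x)))] at s1
  have u3 : exp (-(2 * Y)) ≤ exp (-Y) / 100 := by rw [u2]; nlinarith
  linarith

end

end Vale.Agent.P057RC
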