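import Vale.Agent.P057RC.Conv

/-!
The frozen labels are the labels of the old vertices; the old labels of a joint configuration.
-/

set_option linter.all false

open Matrix Finset Real
open Vale.Agent.P267.H775 Vale.Agent.P057G Vale.Agent.P057PC Vale.Agent.P057TP Vale.Agent.P057SG
open Vale.Agent.P057GH Vale.Agent.P057DP Vale.Agent.P057RH Vale.Agent.P057EN Vale.Agent.P057MA
open Vale.Agent.P057IV (Mg den)
open Vale.Agent.P057SY (fo)

namespace Vale.Agent.P057RC

noncomputable section

variable {T : Tow} {n p s : ℕ} {R : Type} {N : ℝ} [Fintype R] [DecidableEq R]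

/-- the labels on the old vertices without special vertex -/
abbrev E0 (T : Tow) (n p : ℕ) (R : Type) : Type := Lb T (cU : Uv n p R → _) Empty (n + 2)

theorem bs_none {C W : Type} {cl : W → C} {m : ℕ} (l : Lb T cl Empty m) : l.bs = none := by
  rcases l.bs with _ | x
  exacts [rfl, x.elim]

theorem hc1 (w w' : Uv n p R) : cU (id w) = cU (id w') ↔ cU w = cU w' := Iff.rfl

theorem hc2 (w w' : Uv n p R) : cV (fr w) = cV (fr w') ↔ cU w = cU w' := by simp [cV, fr]

theorem fr_inj : Function.Injective (fr : Uv n p R → _) := fun a b h => by simpa [fr] using h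

theorem elim_inj : Function.Injective (Empty.elim : Empty → Unit) := fun a => a.elim

/-- as old labels -/
def e1 : E0 T n p R ≃ Pg T n p R :=
  Equiv.ofBijective (fun l => ⟨lift hc1 Empty.elim l, by
      change l.bs.map _ = none
      rw [bs_none l]; rfl⟩)
    ⟨fun a b h => lift_inj hc1 Function.injective_id elim_inj (congrArg Subtype.val h :), fun l => by
      obtain ⟨a, h⟩ := mem_lift hc1 (k := Empty.elim) Function.injective_id (l := l.1) (B := l.1.fc)
        (o := none) (by simp) (Or.inl l.2)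
      exact ⟨a, Subtype.ext h⟩⟩

/-- as frozen labels -/
def e2 : E0 T n p R ≃ Fz T n p R :=
  Equiv.ofBijective (fun l => ⟨lift hc2 id l, frz_iff.2 fun v hv => by
      obtain ⟨u, -, h⟩ := mem_image.1 hv
      exact ⟨u, h.symm⟩⟩)
    ⟨fun a b h => lift_inj hc2 fr_inj Function.injective_id (congrArg Subtype.val h :), fun l => by
      obtain ⟨a, h⟩ := mem_lift hc2 (k := id) fr_inj (l := l.1) (B := univ) (o := none)
        (fun v hv => by
          obtain ⟨u, rfl⟩ := frz_iff.1 l.2 v hv
          exact mem_image_of_mem _ (mem_univ u)) (Or.inl (bs_none _))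
      exact ⟨a, Subtype.ext h⟩⟩

/-- old labels of vertices are frozen labels -/
def eF : Pg T n p R ≃ Fz T n p R := e1.symm.trans e2

theorem eF_e1 (l : E0 T n p R) : eF (e1 l) = e2 l := by simp [eF]

theorem eF_cd (l : Pg T n p R) : (eF l).1.cd = l.1.cd := by
  obtain ⟨k, rfl⟩ := e1.surjective l
  rw [eF_e1]; rfl

theorem eF_fc (l : Pg T n p R) : (eF l).1.fc = l.1.fc.image fr := by
  obtain ⟨k, rfl⟩ := e1.surjective l
  rw [eF_e1]
  change k.fc.image fr = (k.fc.image id).image fr
  rw [image_id]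

theorem cc_some {C W : Type} (cl : W → C) : Cc (some : W → Option W) cl := fun v v' w h h' => by
  rw [Option.some_injective _ h, Option.some_injective _ h']

theorem cc_jk : Cc (jk : Vt n p R → _) cV := fun v v' w h h' => by
  have k : ∀ v : Vt n p R, jk v = some w → v = fr w := fun v h => by
    rcases v with _ | v | v <;> simp_all [jk, fr]
  rw [k v h, k v' h']

theorem pr_some {C W : Type} [Fintype W] [DecidableEq W] (Z : Sys T W Unit) (cl : W → C) (m : ℕ)
    (x : Lb T cl Unit m → ℝ) (l : Lb T cl Unit m) :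
    Z.pr cl m x l = (pbo Z some Unit).pr cl m x l := by
  refine pr_ext (fun B hB => ?_) x
  rw [at_pbo Z (cc_some cl) _ (l.2.2.1.mono (coe_subset.2 hB))]
  congr 1
  · cases l.bs <;> rfl
  · ext w; simp [mem_img]

variable {Z : Sys T (Uv n p R) Unit}

/-- the law of the frozen labels is the law of the old labels of the vertices -/
theorem tsum_wP (f : (Pg T n p R → ℤ) → ℂ) :
    ∑' w, (wP Z w : ℂ) * f w = ∑' D, (wD Z D : ℂ) * f (D ∘ eF) := by
  refine Ex_equiv eF (G' := bk (Gam T cU Unit (n + 2)) Pu)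
    (G := bk (Gam T cV Empty (n + 2)) fun l => ¬ Liv l) (p := pD Z)
    (p' := fun w l => Z.pr cU (n + 2) (gl3 (toR w) 0 0) l) (fun i j => ?_) (fun D i => ?_)
    fun _ => rfl
  · obtain ⟨i, rfl⟩ := e1.surjective i
    obtain ⟨j, rfl⟩ := e1.surjective j
    rw [eF_e1, eF_e1]
    exact (Gam_lift hc1 Function.injective_id elim_inj i j).trans
      (Gam_lift hc2 fr_inj Function.injective_id i j).symm
  · obtain ⟨i, rfl⟩ := e1.surjective i
    rw [eF_e1, pr_some]
    refine (pr_pbo hc1 (cc_some _) (cc_some _) Function.injective_id elim_inj (fun _ => rfl) _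
      i).trans (Eq.trans ?_ (pr_pbo hc2 (cc_some _) cc_jk fr_inj Function.injective_id
        (fun _ => rfl) _ i).symm)
    congr 1
    funext k
    have h : gl2 0 D (e2 k).1 = D (e2 k) := dif_neg (e2 k).2
    exact ((dif_pos (e1 k).2).trans (congrArg (fun l => (D l : ℝ)) (eF_e1 k))).trans h.symm

/-- the frozen vertex below a vertex -/
def pa (v : Vt n p R) : Vt n p R := v.bind fun x => some (Sum.inr (Sum.elim Sum.inl id x))

theorem cV_pa (v : Vt n p R) : cV (pa v) = cV v := by rcases v with _ | v | v <;> rfl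

theorem pa_pa (v : Vt n p R) : pa (pa v) = pa v := by rcases v with _ | v | v <;> rfl

theorem cV_om (v : Vt n p R) : cV v = (om v).map cU := by rcases v with _ | v | v <;> rfl

theorem mem_sg_fr {A : Finset (Uv n p R)} {v : Vt n p R} :
    v ∈ sg pa (A.image fr) ↔ om v ∈ A.image some := by
  rcases v with _ | v | v <;> simp [mem_sg, pa, om, fr]

theorem rf_iff (l : Pg T n p R) (k : Lr T n p R) :
    Rf pa (eF l).1 k ↔ k.cd = l.1.cd ∧ k.fc.image om = fo l.1 ∧ l.1.Pure := by
  have h0 : fo l.1 = l.1.fc.image some := if_pos l.2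
  simp only [Rf, bs_none, true_and, eF_cd, eF_fc, h0, show l.1.Pure from Or.inl l.2, and_true]
  refine and_congr_right fun h => ⟨fun y => ?_, fun y v hv => mem_sg_fr.2 (y ▸ mem_image_of_mem _ hv)⟩
  refine eq_of_subset_of_card_le (image_subset_iff.2 fun v hv => mem_sg_fr.1 (y hv)) (le_of_eq ?_)
  rw [card_image_of_injective _ (Option.some_injective _), card_image_of_injOn (s := k.fc)
    fun a ha b hb e => k.2.2.1 ha hb (by rw [cV_om, e, cV_om]), k.card_eq (bs_none _),
    l.1.card_eq l.2, h]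

/-- the old labels of a joint configuration -/
theorem rp_rmap (x : Lv T n p R → ℤ) (D : Fz T n p R → ℤ) :
    rp (rmap D (toR x)) = fun l => (UM pa T cV Empty (n + 2) *ᵥ gz x D) (eF l).1 := by
  funext l
  have : rmap D (toR x) l.1 = (((UM pa T cV Empty (n + 2) *ᵥ gz x D) (eF l).1 : ℤ) : ℝ) := by
    simp only [rmap, ← toR_gz, UM, mulVec, dotProduct, of_apply, Int.cast_sum, toR_apply]
    refine sum_congr rfl fun k _ => ?_
    by_cases h : Rf pa (eF l).1 k
    · rw [if_pos h, if_pos ((rf_iff l k).1 h), one_mul]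
    · rw [if_neg h, if_neg (mt (rf_iff l k).2 h), zero_mul, Int.cast_zero]
  rw [rp, this, round_intCast]

/-- the live labels without displacement -/
def rB (T : Tow) (n p : ℕ) (R : Type) [Fintype R] : Finset (Lv T n p R) :=
  univ.filter fun l => lf l.1 ⊆ BB n

theorem mem_rB {l : Lv T n p R} : l ∈ rB T n p R ↔ lf l.1 ⊆ BB n := by simp [rB]

theorem fce_root (lam γ : ℝ) (D : Fz T n p R → ℤ) : fce (root Z lam γ D) (BB n) = rB T n p R :=
  Finset.ext fun _ => mem_fce.trans mem_rB.symm

/-- the labels without displacement -/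
theorem mem_q {l : Lr T n p R} : l ∈ qF T n p R ∪ lvs (rB T n p R) ↔ none ∉ l.fc := by
  have h : none ∈ lf l ↔ none ∈ l.fc := by
    simp only [lf, mem_biUnion]
    refine ⟨fun ⟨v, a, b⟩ => ?_, fun a => ⟨_, a, by simp [lc]⟩⟩
    rcases v with _ | v | v <;> simp_all [lc]
  rw [mem_union, mem_qF, mem_lvs, ← h]
  simp only [mem_rB, BB, subset_erase, subset_univ, true_and, exists_prop]
  exact ⟨fun k => k.elim (fun a b => a ⟨_, b⟩) fun a => a.2, fun k => by tauto⟩

theorem sc_lt {lam γ : ℝ} (hl : 1 ≤ lam) {l k : Lr T n p R} (hl0 : none ∉ l.fc) (h : Rf pa l k)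
    (e : l ≠ k) : lam * sc lam γ l.fc none ≤ sc lam γ k.fc none := by
  have key : ∀ A : Finset (Vt n p R), none ∉ A →
      sc lam γ A none = lam ^ (A.filter fun v => pa v ≠ v).card := fun A hA => by
    rw [sc, ← prod_const, prod_filter]
    refine prod_congr rfl fun v hv => ?_
    rcases v with _ | v | v
    · exact absurd hv hA
    · simp [pa, sv]
    · simp [pa, sv]
  have hk : none ∉ k.fc := fun y => hl0 ((mem_sg.1 (h.2.2.2 y)).elim id id)
  rw [key _ hl0, key _ hk, ← pow_succ']
  exact pow_le_pow_right₀ hl (h.lt cV_pa pa_pa e)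

/-- the law of the old labels of the vertices under the root systems -/
theorem shear (hT : T.Ok s N) (hZ : Z.Ok) {lam γ : ℝ} (hl : 1 ≤ lam) (hg : 0 < γ) {k : ℕ}
    {Λ η e : ℝ} (hL : T.tw.LF (n + 1) k Λ η) (hη : η ≤ 1)
    (hn : 2 * Fintype.card (Vt n p R) ≤ k) (he0 : 0 ≤ e) (he : e ≤ 1 / 6)
    (k1 : 4 ^ Fintype.card (Vt n p R) ≤ e ^ 2 * lam) (k5 : 4 * lam ^ s ≤ Λ)
    (f : (Pg T n p R → ℤ) → ℝ) (hf : ∀ w, |f w| ≤ 1) :
    |∑' D, wD Z D * ∑' x, nw (root Z lam γ D) (rB T n p R) x * f (rp (rmap D (toR x))) -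
      ∑' w, wP Z w * f w| ≤ 3 * √η + 4 * η + 24 * e * Fintype.card (Lr T n p R) := by
  have l0 : 0 < lam := by linarith
  have hΛ : 0 < Λ := lt_of_lt_of_le (by positivity) k5
  have hF : ∀ z : Lr T n p R → ℤ, ‖((f fun l => z (eF l).1 : ℝ) : ℂ)‖ ≤ 1 := fun z => by
    rw [Complex.norm_real]; exact hf _
  have h := refine (q := qF T n p R ∪ lvs (rB T n p R)) (q1 := qF T n p R)
    (c := 0) (a := sc lam γ) (F := fun z => ((f fun l => z (eF l).1 : ℝ) : ℂ)) cV_pa hT
    (ok_pbo hZ jk Empty) pa_pa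
    (fun v hv => at_pbo_insert Z (by rcases v with _ | v | v <;> simp_all [pa, jk]) none)
    (fun l hl l' y _ => mem_q.2 fun x => mem_q.1 hl (y x)) (fun l _ => bs_none l)
    (fun l hl l' y => mem_q.2 fun x => mem_q.1 hl ((mem_sg.1 (y.2.2.2 x)).elim id id))
    (fun l => by
      rw [mem_q, mem_qF, frz_iff]
      refine ⟨fun y => ⟨fun x => by simpa [fr] using y _ x, fun v hv => ?_⟩, fun y v hv => ?_⟩
      · obtain ⟨u, rfl⟩ := y v hv
        rfl
      · have := y.2 v hv
        rcases v with _ | v | v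
        · exact absurd hv y.1
        · simp [pa] at this
        · exact ⟨v, rfl⟩) le_rfl hL hη (by simp only [Fintype.card_empty]; omega) hΛ
    (sc_pos l0 hg) he0 he
    (fun l hl' l' y x => (mul_le_mul_of_nonneg_right k1 (sc_pos l0 hg _ _).le).trans (by
      rw [mul_assoc]
      exact mul_le_mul_of_nonneg_left (sc_lt hl (mem_q.1 hl') y x) (sq_nonneg e)))
    (fun l hl' => by
      have : sc lam γ l.fc l.bs ≤ lam ^ s :=
        (prod_le_prod (g := fun _ => lam) (fun v _ => (sv_pos l0 hg v).le) fun v hv => by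
          rcases v with _ | v | v
          exacts [absurd hv (mem_q.1 hl'), le_rfl, hl]).trans
          ((prod_const _).trans_le (pow_le_pow_right₀ hl (l.card_le.trans (hT.le _))))
      simp only [Fintype.card_empty, Nat.cast_zero, mul_zero, zero_add]
      linarith) (fun _ _ _ => rfl) hF
    (fun z z' y => by
      beta_reduce
      rw [show (fun l => z (eF l).1) = fun l => z' (eF l).1 from
        funext fun l => y _ (mem_qF.2 (eF l).2)])
  have h1 := conv hT hZ l0 hg (r := rB T n p R)
    (fun i hi j y => mem_rB.2 (by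
      have := mem_rB.1 hi
      unfold lf at this ⊢
      rwa [y])) fun z => hF (UM pa T cV Empty (n + 2) *ᵥ z)
  have h2 := Ev_qF (Z := Z) lam γ fun z => ((f fun l => z (eF l).1 : ℝ) : ℂ)
  simp only [gz_frz] at h2
  simp only [← rp_rmap, Ev_real (root Z lam γ _)] at h1
  replace h2 := h2.trans (tsum_wP (Z := Z) fun w => (f w : ℂ)).symm
  unfold cz at h1 h2
  rw [h1, h2, one_mul] at h
  simp only [← Complex.ofReal_mul, ← Complex.ofReal_tsum, ← Complex.ofReal_sub, Complex.norm_real,
    Real.norm_eq_abs] at h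
  exact h.trans (by gcongr; exact card_le_univ _)

end

end Vale.Agent.P057RC
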