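import Vale.Agent.P057RC.Defs
import Vale.Agent.P057EN.Rfn

/-!
The joint law of the frozen and the live labels is a closed part of one cube system.
-/

set_option linter.all false

open Matrix Finset Real
open Vale.Agent.P267.H775 Vale.Agent.P057G Vale.Agent.P057PC Vale.Agent.P057TP Vale.Agent.P057SG
open Vale.Agent.P057GH Vale.Agent.P057DP Vale.Agent.P057RH Vale.Agent.P057EN Vale.Agent.P057MA
open Vale.Agent.P057IV (Mg den)

namespace Vale.Agent.P057RC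

noncomputable section

variable {T : Tow} {n p s : ℕ} {R : Type} {N : ℝ} [Fintype R] [DecidableEq R]

/-- live and frozen integer labels together -/
def gz (x : Lv T n p R → ℤ) (D : Fz T n p R → ℤ) (l : Lr T n p R) : ℤ :=
  if h : Liv l then x ⟨l, h⟩ else D ⟨l, h⟩

theorem toR_gz (x : Lv T n p R → ℤ) (D : Fz T n p R → ℤ) : toR (gz x D) = gl2 (toR x) D := by
  funext l
  simp only [toR_apply, gz, gl2]
  split_ifs <;> rfl

theorem gz_live (x : Lv T n p R → ℤ) (D : Fz T n p R → ℤ) (l : Lv T n p R) : gz x D l = x l :=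
  dif_pos l.2

theorem gz_frz (x : Lv T n p R → ℤ) (D : Fz T n p R → ℤ) (l : Fz T n p R) : gz x D l = D l :=
  dif_neg l.2

/-- the scale of a face -/
def sc (lam γ : ℝ) (A : Finset (Vt n p R)) (_ : Option Empty) : ℝ := ∏ x ∈ A, sv lam γ x

theorem sv_pos {lam γ : ℝ} (hl : 0 < lam) (hg : 0 < γ) (x : Vt n p R) : 0 < sv lam γ x := by
  rcases x with _ | x | x
  exacts [hg, hl, one_pos]

theorem sc_pos {lam γ : ℝ} (hl : 0 < lam) (hg : 0 < γ) (A : Finset (Vt n p R)) (o : Option Empty) :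
    0 < sc lam γ A o := prod_pos fun x _ => sv_pos hl hg x

/-- a frozen vertex -/
def fr (u : Uv n p R) : Vt n p R := some (Sum.inr u)

theorem frz_iff {l : Lr T n p R} : ¬ Liv l ↔ ∀ v ∈ l.fc, ∃ u, v = fr u := by
  simp only [Liv, lf, biUnion_nonempty, not_exists, not_and]
  refine forall₂_congr fun v _ => ?_
  rcases v with _ | v | v <;> simp [lc, fr]

theorem sc_frz (lam γ : ℝ) {l : Lr T n p R} (h : ¬ Liv l) (o : Option Empty) :
    sc lam γ l.fc o = 1 := prod_eq_one fun v hv => by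
  obtain ⟨u, rfl⟩ := frz_iff.1 h v hv
  rfl

/-- the frozen labels -/
def qF (T : Tow) (n p : ℕ) (R : Type) [Fintype R] : Finset (Lr T n p R) :=
  univ.filter fun l => ¬ Liv l

theorem mem_qF {l : Lr T n p R} : l ∈ qF T n p R ↔ ¬ Liv l := by simp [qF]

theorem cq_qF : Cq (qF T n p R) := fun l hl l' h _ =>
  mem_qF.2 (frz_iff.2 fun v hv => frz_iff.1 (mem_qF.1 hl) v (h hv))

/-- a set of live labels among all labels -/
def lvs (r : Finset (Lv T n p R)) : Finset (Lr T n p R) := r.map (Function.Embedding.subtype _)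

theorem mem_lvs {r : Finset (Lv T n p R)} {l : Lr T n p R} :
    l ∈ lvs r ↔ ∃ h : Liv l, ⟨l, h⟩ ∈ r := by
  simp only [lvs, mem_map, Function.Embedding.coe_subtype]
  exact ⟨fun ⟨a, h, e⟩ => e ▸ ⟨a.2, h⟩, fun ⟨h, k⟩ => ⟨_, k, rfl⟩⟩

theorem disj_lvs (r : Finset (Lv T n p R)) : Disjoint (qF T n p R) (lvs r) :=
  disjoint_left.2 fun l h k => mem_qF.1 h (mem_lvs.1 k).1

variable (Z : Sys T (Uv n p R) Unit)

/-- the cube system of all labels -/
def cz (lam γ : ℝ) : MS (Vt n p R ⊕ Empty) (Lr T n p R) :=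
  cub (pbo Z jk Empty) cV (n + 2) (sc lam γ) 0

/-- the centres of the frozen labels -/
def pD (D : Fz T n p R → ℤ) (l : Fz T n p R) : ℝ := (pbo Z jk Empty).pr cV (n + 2) (gl2 0 D) l

theorem wD_eq (D : Fz T n p R → ℤ) :
    wD Z D = ng (bk (Gam T cV Empty (n + 2)) fun l => ¬ Liv l) (toR D - pD Z D) := rfl

theorem wD_nonneg (D : Fz T n p R → ℤ) : 0 ≤ wD Z D := ng_nonneg _ _

variable {Z}

theorem tri_pD (hT : T.Ok s N) (hZ : Z.Ok) : Tri (fun l : Fz T n p R => T.lv l.1.cd) (pD Z) :=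
  fun l D D' k => pr_congr hT (ok_pbo hZ _ _) fun l' _ _ h3 => by
    unfold gl2
    split_ifs with e
    exacts [rfl, by rw [k ⟨l', e⟩ h3]]

theorem summable_wD (hT : T.Ok s N) (hZ : Z.Ok) : Summable (wD Z) :=
  summable_ng (tri_pD hT hZ) ((pd_Gam hT.pd _ _ _).submatrix Subtype.val_injective)

theorem lo_cz (hT : T.Ok s N) (hZ : Z.Ok) {lam γ : ℝ} (hl : 0 < lam) (hg : 0 < γ) :
    Lo (cz Z lam γ) := lo_cub hT (ok_pbo hZ _ _) (sc_pos hl hg)

/-- the frozen part -/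
theorem Ev_qF (lam γ : ℝ) (f : (Lr T n p R → ℤ) → ℂ) :
    Ev (cz Z lam γ) (qF T n p R) f = ∑' D, (wD Z D : ℂ) * f (gz 0 D) := by
  let e : Fz T n p R ≃ ↥(qF T n p R) := Equiv.subtypeEquivRight fun _ => mem_qF.symm
  have k : ∀ z : ↥(qF T n p R) → ℤ, gz 0 (z ∘ e) = put (qF T n p R) z 0 := fun z => by
    funext l
    by_cases h : Liv l
    · rw [put_neg _ _ fun y => mem_qF.1 y h]; exact dif_pos h
    · rw [put_pos _ _ (mem_qF.2 h)]; exact dif_neg h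
  rw [Ev_eq_Ex, ← Ex_equiv e (G' := bk (Gam T cV Empty (n + 2)) fun l => ¬ Liv l) (p' := pD Z)
    (f' := fun D => f (gz 0 D)) (fun i j => ?_) (fun z i => ?_) fun z => by rw [k]]
  · rfl
  · change _ = sc lam γ i.1.fc i.1.bs * Gam T cV Empty (n + 2) i.1 j.1
    rw [sc_frz lam γ i.2, one_mul]; rfl
  · change _ = (pbo Z jk Empty).pr cV (n + 2) (toR (put (qF T n p R) z 0)) i.1 + 0
    rw [← k, toR_gz, add_zero, toR_zero]; rfl

/-- the fibre over frozen labels is the root system -/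
theorem Fb_lvs (lam γ : ℝ) (r : Finset (Lv T n p R)) (f : (Lr T n p R → ℤ) → ℂ)
    (D : Fz T n p R → ℤ) :
    Fb (cz Z lam γ) (lvs r) f (gz 0 D) = Ev (root Z lam γ D) r fun x => f (gz x D) := by
  let e : ↥r ≃ ↥(lvs r) := Equiv.ofBijective (fun i => ⟨i.1.1, mem_lvs.2 ⟨i.1.2, i.2⟩⟩)
    ⟨fun i j h => Subtype.ext (Subtype.ext (congrArg Subtype.val h :)), fun j => by
      obtain ⟨h, k⟩ := mem_lvs.1 j.2
      exact ⟨⟨_, k⟩, rfl⟩⟩
  have k : ∀ z : ↥(lvs r) → ℤ, gz (put r (z ∘ e) 0) D = put (lvs r) z (gz 0 D) := fun z => by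
    funext l
    by_cases h : Liv l
    · rw [gz_live _ _ ⟨l, h⟩]
      by_cases y : (⟨l, h⟩ : Lv T n p R) ∈ r
      · rw [put_pos _ _ y, put_pos _ _ (mem_lvs.2 ⟨h, y⟩)]; rfl
      · rw [put_neg _ _ y, put_neg _ _ fun c => y (mem_lvs.1 c).2, gz_live _ _ ⟨l, h⟩]
    · rw [put_neg _ _ fun c => h (mem_lvs.1 c).1, gz_frz _ _ ⟨l, h⟩, gz_frz _ _ ⟨l, h⟩]
  rw [Ev_eq_Ex]
  refine (Ex_equiv e (fun i j => rfl) (fun z i => ?_) fun z => by rw [k]).symm
  change (pbo Z jk Empty).pr cV (n + 2) (gl2 (toR (put r (z ∘ e) 0)) D) i.1.1 =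
    (pbo Z jk Empty).pr cV (n + 2) (toR (put (lvs r) z (gz 0 D))) i.1.1 + 0
  rw [← k, toR_gz, add_zero]

/-- the joint law -/
theorem conv (hT : T.Ok s N) (hZ : Z.Ok) {lam γ : ℝ} (hl : 0 < lam) (hg : 0 < γ)
    {r : Finset (Lv T n p R)} (hr : ∀ i ∈ r, ∀ j : Lv T n p R, j.1.fc = i.1.fc → j ∈ r)
    {f : (Lr T n p R → ℤ) → ℂ} {B : ℝ} (hf : ∀ z, ‖f z‖ ≤ B) :
    Ev (cz Z lam γ) (qF T n p R ∪ lvs r) f =
      ∑' D, (wD Z D : ℂ) * Ev (root Z lam γ D) r fun x => f (gz x D) := by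
  have h := lo_cz hT hZ hl hg
  rw [Ev_split h.toTr ((cq_iff.2 cq_qF).cl h) (fun i j hi hj => ?_) (disj_lvs r) hf, Ev_qF]
  · simp only [Fb_lvs]
  · by_contra e
    obtain ⟨a, b⟩ := mem_lvs.1 hi
    have c := (Gam_ne (right_ne_zero_of_mul e)).1
    have d : Liv j := by unfold Liv lf at a ⊢; rwa [← c]
    exact hj (mem_lvs.2 ⟨d, hr _ b ⟨j, d⟩ c.symm⟩)

/-- the masses of the root systems are bounded -/
theorem mass_bdd (hT : T.Ok s N) (hZ : Z.Ok) {lam γ : ℝ} (hl : 0 < lam) (hg : 0 < γ)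
    (r : Finset (Lv T n p R)) : ∃ B, ∀ D, (root Z lam γ D).mass r ≤ B := by
  obtain ⟨B, hB⟩ := (lo_cz hT hZ hl hg).toTr.fm_bdd (lvs r)
  refine ⟨B, fun D => ?_⟩
  have h := Fb_lvs (Z := Z) lam γ r (fun _ => 1) D
  rw [Fb_one, Ev_one] at h
  exact (Complex.ofReal_injective h).symm.trans_le (hB _)

theorem den_eq {V ι : Type} [Fintype V] [DecidableEq V] [Fintype ι] [DecidableEq ι] (S : MS V ι)
    (F : Finset V) (E : (ι → ℝ) → Prop) :
    (den S F E : ℂ) = Ev S (fce S F) fun z => (P057T1.ind (E (toR z)) : ℝ) := by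
  rw [Ev_real, den, ← tsum_div_const]
  simp only [nw, div_mul_eq_mul_div]

end

end Vale.Agent.P057RC
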