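import Vale.Agent.P057SG.Plan

/-!
The part of the root block that concerns the smoothness margin.
-/

set_option linter.all false

open Matrix Finset Real
open Vale.Agent.P057TP Vale.Agent.P057SG
open Vale.Agent.P057T1 (ind)
open Vale.Agent.P057IV (Mg)

namespace Vale.Agent.P057RC

noncomputable section

/-- the root system is smooth over most frozen labels -/
def MGM (s : ℕ) : Prop :=
  ∃ c : ℕ, 1 ≤ c ∧ ∀ (N : ℝ) (P : ℕ → ℝ) (T : Tow) (n p : ℕ) (R : Type) [Fintype R] [DecidableEq R]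
    (Z : Sys T (Uv n p R) Unit) (f : ℤ → ℝ) (θ A γ lam Y : ℝ), Ctx s N c P T n p R Z f θ A →
    P (n + 2) ≤ Y → Y ≤ A → 1 ≤ γ → γ ≤ exp A → exp (Y ^ c) ≤ lam → lam ≤ exp A →
    ∑' D, wD Z D * P057T1.ind (¬ Mg (root Z lam γ D) A) ≤ exp (-(2 * Y))

end

end Vale.Agent.P057RC
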